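import Mathlib

/-!
Ryser's conjecture for r-partite r-uniform hypergraphs of small maximum degree.

A random set of vertices of degree at least two, completed inside one part, gives a cover whose
size is a sum over edges of a function of the normalised weight of the edge; the Caro-Wei bound
turns the reciprocals of these weights into a matching.
-/

open Finset

namespace Vale.Agent.P045

variable {V : Type*} [Fintype V] [DecidableEq V]

/-- The degree of a vertex, minus one. -/
def excess (H : Finset (Finset V)) (v : V) : ℕ := (H.filter (v ∈ ·)).card - 1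

/-- The normalised weight of an edge. -/
noncomputable def load (r : ℕ) (H : Finset (Finset V)) (e : Finset V) : ℝ :=
  (∑ v ∈ e, (excess H v : ℝ)) / r

omit [Fintype V] in
theorem caro_wei (H : Finset (Finset V)) (hne : ∀ e ∈ H, e.Nonempty) :
    ∃ M ⊆ H, (M : Set (Finset V)).Pairwise Disjoint ∧
      ∑ e ∈ H, (1 : ℝ) / (H.filter fun f => ¬Disjoint e f).card ≤ M.card := by
  induction H using Finset.strongInduction with
  | H H ih =>
    rcases H.eq_empty_or_nonempty with rfl | hH
    · exact ⟨∅, subset_rfl, by simp, by simp⟩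
    obtain ⟨e, he, hmin⟩ := exists_min_image H (fun e => (H.filter fun f => ¬Disjoint e f).card) hH
    set N := H.filter fun f => ¬Disjoint e f with hN
    have self : ∀ f ∈ H, f ∈ H.filter fun g => ¬Disjoint f g := fun f hf =>
      mem_filter.2 ⟨hf, fun h => (hne f hf).ne_empty (disjoint_self.1 h)⟩
    have heN : e ∈ N := self e he
    obtain ⟨M, hM, hMd, hMc⟩ := ih (H \ N)
      (ssubset_iff_of_subset sdiff_subset |>.2 ⟨e, he, by simp [heN]⟩)
      fun f hf => hne f (mem_sdiff.1 hf).1
    have hfar : ∀ f ∈ M, Disjoint e f := fun f hf => by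
      have := mem_sdiff.1 (hM hf)
      by_contra h
      exact this.2 (mem_filter.2 ⟨this.1, h⟩)
    have heM : e ∉ M := fun h => (mem_sdiff.1 (hM h)).2 heN
    refine ⟨insert e M, insert_subset he (hM.trans sdiff_subset), ?_, ?_⟩
    · rw [coe_insert]
      exact hMd.insert fun f hf _ => ⟨hfar f hf, (hfar f hf).symm⟩
    have h1 : ∑ f ∈ N, (1 : ℝ) / (H.filter fun g => ¬Disjoint f g).card ≤ 1 := by
      have hpos : (0 : ℝ) < N.card := by exact_mod_cast card_pos.2 ⟨e, heN⟩
      refine (sum_le_sum (g := fun _ => (1 : ℝ) / N.card) fun f hf => ?_).trans (le_of_eq ?_)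
      · exact one_div_le_one_div_of_le hpos (by exact_mod_cast hmin f (mem_filter.1 hf).1)
      · rw [sum_const, nsmul_eq_mul]; field_simp
    have h2 : ∑ f ∈ H \ N, (1 : ℝ) / (H.filter fun g => ¬Disjoint f g).card ≤ M.card := by
      refine le_trans (sum_le_sum fun f hf => one_div_le_one_div_of_le ?_ ?_) hMc
      · exact_mod_cast card_pos.2 ⟨f, mem_filter.2 ⟨hf, (mem_filter.1 (self f (mem_sdiff.1 hf).1)).2⟩⟩
      · exact_mod_cast card_le_card (filter_subset_filter _ sdiff_subset)
    rw [← sum_sdiff (filter_subset (fun f => ¬Disjoint e f) H), card_insert_of_notMem heM]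
    push_cast
    linarith

omit [Fintype V] in
theorem meet_card_le (H : Finset (Finset V)) {e : Finset V} (he : e ∈ H) :
    (H.filter fun f => ¬Disjoint e f).card ≤ 1 + ∑ v ∈ e, excess H v := by
  have h : (H.filter fun f => ¬Disjoint e f) ⊆
      insert e (e.biUnion fun v => (H.filter (v ∈ ·)).erase e) := by
    intro f hf
    obtain ⟨hf, hd⟩ := mem_filter.1 hf
    rcases eq_or_ne f e with rfl | hne
    · exact mem_insert_self _ _
    · obtain ⟨v, hv, hv'⟩ := not_disjoint_iff.1 hd
      exact mem_insert_of_mem (mem_biUnion.2 ⟨v, hv, mem_erase.2 ⟨hne, mem_filter.2 ⟨hf, hv'⟩⟩⟩)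
  refine (card_le_card h).trans ((card_insert_le _ _).trans ?_)
  rw [add_comm]
  refine Nat.add_le_add_left (card_biUnion_le.trans (sum_le_sum fun v hv => ?_)) 1
  rw [card_erase_of_mem (mem_filter.2 ⟨he, hv⟩), excess]

/-- The probability of a set when vertices are kept independently. -/
def prob (q : V → ℝ) (S : Finset V) : ℝ := (∏ v ∈ S, q v) * ∏ v ∈ univ \ S, (1 - q v)

theorem sum_prob_avoid (q : V → ℝ) (e : Finset V) :
    ∑ S ∈ univ.powerset, (if Disjoint S e then prob q S else 0) = ∏ v ∈ e, (1 - q v) := by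
  rw [← sum_filter]
  have hset : (univ.powerset.filter fun S : Finset V => Disjoint S e) = (univ \ e).powerset := by
    ext S; simp [subset_sdiff]
  rw [hset]
  have h : ∀ S ∈ (univ \ e).powerset, prob q S =
      (∏ v ∈ e, (1 - q v)) * ((∏ v ∈ S, q v) * ∏ v ∈ (univ \ e) \ S, (1 - q v)) := by
    intro S hS
    have hd : Disjoint S e := (subset_sdiff.1 (mem_powerset.1 hS)).2
    rw [prob, show univ \ S = e ∪ ((univ \ e) \ S) by
      ext v
      simp only [mem_sdiff, mem_univ, true_and, mem_union]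
      constructor
      · intro hv; by_cases he : v ∈ e <;> simp [he, hv]
      · rintro (hv | hv)
        · exact fun hS' => disjoint_left.1 hd hS' hv
        · exact hv.2, prod_union (disjoint_left.2 fun v hv hv' => by simp_all)]
    ring
  rw [sum_congr rfl h, ← mul_sum, ← prod_add]
  simp

theorem sum_prob (q : V → ℝ) : ∑ S ∈ univ.powerset, prob q S = 1 := by
  simpa using sum_prob_avoid q ∅

theorem sum_prob_card (q : V → ℝ) :
    ∑ S ∈ univ.powerset, prob q S * S.card = ∑ v, q v := by
  have h : ∀ S : Finset V, prob q S * S.card =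
      ∑ v, (prob q S - if Disjoint S {v} then prob q S else 0) := by
    intro S
    have e : ∀ v, (prob q S - if Disjoint S {v} then prob q S else 0) =
        prob q S * if v ∈ S then 1 else 0 := fun v => by
      by_cases hv : v ∈ S <;> simp [hv]
    rw [sum_congr rfl fun v _ => e v, ← mul_sum, sum_boole, filter_mem_eq_inter, univ_inter]
  rw [sum_congr rfl fun S _ => h S, sum_comm]
  refine sum_congr rfl fun v _ => ?_
  rw [sum_sub_distrib, sum_prob, sum_prob_avoid, prod_singleton]
  ring

/-- The general bound: `u` dominates `exp (-c x)`, the line `u + k σ` dominates the cost of a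
vertex of degree `k + 1`, and `(u + x σ) (1 + r x) ≤ K`. -/
theorem cover_bound {r : ℕ} (hr : 0 < r) (part : V → Fin r) (H : Finset (Finset V))
    (hsize : ∀ e ∈ H, e.card = r) (hpart : ∀ e ∈ H, Set.InjOn part (e : Set V)) (L : ℕ)
    (hdeg : ∀ v, (H.filter (v ∈ ·)).card ≤ L + 1) (c K : ℝ) (hc : 0 ≤ c) (hcL : c * L ≤ r)
    (hK : 0 ≤ K) (u σ : ℝ → ℝ) (hu : ∀ x : ℝ, 0 ≤ x → Real.exp (-(c * x)) ≤ u x)
    (hline : ∀ x : ℝ, 0 ≤ x → x ≤ L → ∀ k : ℕ, 1 ≤ k → k ≤ L →
      (1 + c * k) / (1 + k) ≤ u x + k * σ x)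
    (hG : ∀ x : ℝ, 0 ≤ x → x ≤ L → (u x + x * σ x) * (1 + r * x) ≤ K) (ν : ℕ)
    (hν : ∀ M ⊆ H, (M : Set (Finset V)).Pairwise Disjoint → M.card ≤ ν) :
    ∃ C : Finset V, (∀ e ∈ H, ∃ v ∈ C, v ∈ e) ∧ (C.card : ℝ) ≤ K * ν := by
  have hr' : (0 : ℝ) < r := by exact_mod_cast hr
  set k : V → ℕ := excess H with hk
  have hkL : ∀ v, k v ≤ L := fun v => by have := hdeg v; simp only [hk, excess]; omega
  set q : V → ℝ := fun v => c * k v / r with hq
  have hq0 : ∀ v, 0 ≤ q v := fun v => by positivity
  have hq1 : ∀ v, q v ≤ 1 := fun v => by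
    rw [hq, div_le_one hr']
    exact (mul_le_mul_of_nonneg_left (by exact_mod_cast hkL v) hc).trans hcL
  set x : Finset V → ℝ := load r H with hx
  have hx0 : ∀ e, 0 ≤ x e := fun e => div_nonneg (sum_nonneg fun v _ => by positivity) hr'.le
  have hxL : ∀ e ∈ H, x e ≤ L := fun e he => by
    rw [hx, load, div_le_iff₀ hr']
    refine (sum_le_card_nsmul e _ (L : ℝ) fun v _ => by exact_mod_cast hkL v).trans (le_of_eq ?_)
    rw [hsize e he, nsmul_eq_mul, mul_comm]
  have havoid : ∀ e, ∏ v ∈ e, (1 - q v) ≤ u (x e) := fun e => by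
    refine le_trans ?_ (hu _ (hx0 e))
    rw [show -(c * x e) = ∑ v ∈ e, -q v by
      simp only [hx, load, hq, hk, sum_neg_distrib, mul_sum, sum_div, mul_div_assoc],
      Real.exp_sum]
    exact prod_le_prod (fun v _ => sub_nonneg.2 (hq1 v)) fun v _ => Real.one_sub_le_exp_neg _
  set left : Finset V → Finset V :=
    fun S => univ.filter fun v => ∃ e ∈ H, v ∈ e ∧ Disjoint S e with hleft
  set f : Finset V → ℝ := fun S => r * S.card + (left S).card with hf
  set φ : Finset V → V → ℝ :=
    fun e v => if k v = 0 then u (x e) else (1 + c * k v) / (1 + k v) with hφ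
  have hvertex : ∀ v, c * k v + ∑ S ∈ univ.powerset, (if v ∈ left S then prob q S else 0) ≤
      ∑ e ∈ H.filter (v ∈ ·), φ e v := by
    intro v
    have hP : ∀ S, 0 ≤ prob q S := fun S => mul_nonneg (prod_nonneg fun w _ => hq0 w)
      (prod_nonneg fun w _ => sub_nonneg.2 (hq1 w))
    rcases Nat.eq_zero_or_pos (H.filter (v ∈ ·)).card with h0 | h0
    · rw [card_eq_zero] at h0
      have : ∀ S, v ∉ left S := fun S hS => by
        obtain ⟨e, he, hve, -⟩ := (mem_filter.1 hS).2
        have : e ∈ H.filter (v ∈ ·) := mem_filter.2 ⟨he, hve⟩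
        simp [h0] at this
      simp [hk, excess, h0, this]
    rcases Nat.eq_zero_or_pos (k v) with hk0 | hk0
    · obtain ⟨e, he⟩ : ∃ e, H.filter (v ∈ ·) = {e} := card_eq_one.1 (by
        simp only [hk, excess] at hk0; omega)
      rw [he, sum_singleton, hφ]
      simp only [hk0, Nat.cast_zero, mul_zero, zero_add, if_pos]
      refine le_trans (sum_le_sum fun S _ => ?_) ((sum_prob_avoid q e).trans_le (havoid e))
      by_cases hS : v ∈ left S
      · obtain ⟨e', he', hve, hd⟩ := (mem_filter.1 hS).2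
        have : e' ∈ H.filter (v ∈ ·) := mem_filter.2 ⟨he', hve⟩
        rw [he, mem_singleton] at this
        subst this
        simp [hS, hd]
      · rw [if_neg hS]
        split
        · exact hP S
        · exact le_rfl
    · have hsum : ∑ S ∈ univ.powerset, (if v ∈ left S then prob q S else 0) ≤ 1 :=
        (sum_le_sum fun S _ => by split <;> [exact le_rfl; exact hP S]).trans (sum_prob q).le
      have hd : ((H.filter (v ∈ ·)).card : ℝ) = 1 + k v := by
        rw [show (H.filter (v ∈ ·)).card = 1 + k v by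
          simp only [hk, excess] at hk0 ⊢; omega]
        push_cast; ring
      simp only [hφ, Nat.pos_iff_ne_zero.1 hk0, if_false, sum_const, nsmul_eq_mul, hd]
      rw [mul_div_cancel₀ _ (by positivity)]
      linarith
  have hmean : ∑ S ∈ univ.powerset, prob q S * f S ≤ ∑ e ∈ H, r * (u (x e) + x e * σ (x e)) := by
    have e1 : ∑ S ∈ univ.powerset, prob q S * f S =
        ∑ v, (c * k v + ∑ S ∈ univ.powerset, (if v ∈ left S then prob q S else 0)) := by
      rw [sum_add_distrib, sum_comm]
      simp only [hf, mul_add, sum_add_distrib]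
      congr 1
      · rw [sum_congr rfl fun S _ => mul_left_comm (prob q S) (r : ℝ) _, ← mul_sum, sum_prob_card,
          mul_sum]
        exact sum_congr rfl fun v _ => by rw [hq]; field_simp
      · refine sum_congr rfl fun S _ => ?_
        rw [← sum_filter, filter_mem_eq_inter, univ_inter, sum_const, nsmul_eq_mul, mul_comm]
    rw [e1]
    refine (sum_le_sum fun v _ => hvertex v).trans ?_
    rw [sum_comm' (t' := H) (s' := fun e => e) (by simp [and_comm])]
    refine sum_le_sum fun e he => ?_
    refine (sum_le_sum (g := fun v => u (x e) + k v * σ (x e)) fun v hv => ?_).trans (le_of_eq ?_)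
    · rcases Nat.eq_zero_or_pos (k v) with hk0 | hk0
      · simp [hφ, hk0]
      · simp only [hφ, Nat.pos_iff_ne_zero.1 hk0, if_false]
        exact hline _ (hx0 e) (hxL e he) _ hk0 (hkL v)
    · rw [sum_add_distrib, sum_const, hsize e he, nsmul_eq_mul, ← sum_mul,
        show (∑ v ∈ e, (k v : ℝ)) = r * x e by rw [hx, load, mul_div_cancel₀ _ hr'.ne', hk]]
      ring
  obtain ⟨S, hS⟩ : ∃ S : Finset V, f S ≤ ∑ e ∈ H, r * (u (x e) + x e * σ (x e)) := by
    by_contra h
    simp only [not_exists, not_le] at h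
    have hP : ∀ S ∈ univ.powerset, (0 : ℝ) ≤ prob q S := fun S _ =>
      mul_nonneg (prod_nonneg fun w _ => hq0 w) (prod_nonneg fun w _ => sub_nonneg.2 (hq1 w))
    obtain ⟨S₀, hS₀, hS₀'⟩ : ∃ S ∈ univ.powerset, 0 < prob q S := by
      by_contra hh
      simp only [not_exists, not_and, not_lt] at hh
      have := sum_nonpos hh
      rw [sum_prob] at this
      linarith
    have := sum_lt_sum (fun S hS => mul_le_mul_of_nonneg_left (h S).le (hP S hS))
      ⟨S₀, hS₀, mul_lt_mul_of_pos_left (h S₀) hS₀'⟩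
    rw [← sum_mul, sum_prob, one_mul] at this
    linarith
  have : Nonempty (Fin r) := ⟨⟨0, hr⟩⟩
  obtain ⟨i, -, hi⟩ : ∃ i ∈ (univ : Finset (Fin r)),
      ((left S).filter (part · = i)).card * r ≤ (left S).card := by
    refine exists_le_of_sum_le univ_nonempty ?_
    rw [← sum_mul, ← card_eq_sum_card_fiberwise fun v _ => mem_univ (part v), sum_const, card_univ,
      Fintype.card_fin, smul_eq_mul, mul_comm]
  refine ⟨S ∪ (left S).filter (part · = i), fun e he => ?_, ?_⟩
  · by_cases hd : Disjoint S e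
    · have himg : e.image part = univ := eq_univ_of_card _ (by
        rw [card_image_of_injOn (hpart e he), hsize e he, Fintype.card_fin])
      obtain ⟨v, hv, hvi⟩ := mem_image.1 (himg ▸ mem_univ i)
      exact ⟨v, mem_union_right _ (mem_filter.2
        ⟨mem_filter.2 ⟨mem_univ _, e, he, hv, hd⟩, hvi⟩), hv⟩
    · obtain ⟨v, hv, hv'⟩ := not_disjoint_iff.1 hd
      exact ⟨v, mem_union_left _ hv, hv'⟩
  · obtain ⟨M, hM, hMd, hMc⟩ := caro_wei H fun e he => card_pos.1 (by rw [hsize e he]; exact hr)
    have hcard : (r : ℝ) * (S ∪ (left S).filter (part · = i)).card ≤ f S := by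
      have h1 : ((S ∪ (left S).filter (part · = i)).card : ℝ) ≤
          S.card + ((left S).filter (part · = i)).card := by exact_mod_cast card_union_le _ _
      have h2 : (((left S).filter (part · = i)).card : ℝ) * r ≤ (left S).card := by
        exact_mod_cast hi
      simp only [hf]
      nlinarith
    have h3 : ∀ e ∈ H, u (x e) + x e * σ (x e) ≤
        K * (1 / (H.filter fun g => ¬Disjoint e g).card) := fun e he => by
      have hself : ¬Disjoint e e := fun h => by
        have := hsize e he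
        rw [disjoint_self.1 h] at this
        simp at this
        omega
      have hpos : (0 : ℝ) < (H.filter fun g => ¬Disjoint e g).card :=
        Nat.cast_pos.2 (card_pos.2 ⟨e, mem_filter.2 ⟨he, hself⟩⟩)
      have hle : ((H.filter fun g => ¬Disjoint e g).card : ℝ) ≤ 1 + r * x e := by
        rw [hx, load, mul_div_cancel₀ _ hr'.ne']
        exact_mod_cast meet_card_le H he
      rw [mul_one_div, le_div_iff₀ hpos]
      rcases le_total 0 (u (x e) + x e * σ (x e)) with h | h
      · exact (mul_le_mul_of_nonneg_left hle h).trans (hG _ (hx0 e) (hxL e he))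
      · exact (mul_nonpos_of_nonpos_of_nonneg h hpos.le).trans hK
    have h4 : (∑ e ∈ H, r * (u (x e) + x e * σ (x e))) ≤ r * (K * ν) := by
      rw [← mul_sum]
      refine mul_le_mul_of_nonneg_left ((sum_le_sum h3).trans ?_) hr'.le
      rw [← mul_sum]
      exact mul_le_mul_of_nonneg_left (hMc.trans (Nat.cast_le.2 (hν M hM hMd))) hK
    exact le_of_mul_le_mul_left ((hcard.trans hS).trans h4) hr'

variable {r : ℕ} (part : V → Fin r) (H : Finset (Finset V))

/-- Maximum degree at most three. -/
theorem cover_degree_three (hr : 0 < r) (hsize : ∀ e ∈ H, e.card = r)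
    (hpart : ∀ e ∈ H, Set.InjOn part (e : Set V)) (hdeg : ∀ v, (H.filter (v ∈ ·)).card ≤ 3)
    (ν : ℕ) (hν : ∀ M ⊆ H, (M : Set (Finset V)).Pairwise Disjoint → M.card ≤ ν) :
    ∃ C : Finset V, (∀ e ∈ H, ∃ v ∈ C, v ∈ e) ∧
      (C.card : ℝ) ≤ (3 * r + 1) ^ 2 / (12 * r) * ν := by
  have hr' : (0 : ℝ) < r := by exact_mod_cast hr
  refine cover_bound hr part H hsize hpart 2 (by simpa using hdeg) 0 _ le_rfl (by simp)
    (by positivity) (fun _ => 1) (fun _ => -(1 / 3)) (fun x _ => by simp) ?_ ?_ ν hν
  · intro x _ _ k hk1 hk2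
    interval_cases k <;> norm_num
  · intro x _ _
    rw [le_div_iff₀ (by positivity)]
    nlinarith [sq_nonneg (2 * r * x - (3 * r - 1))]

/-- Maximum degree at most four. -/
theorem cover_degree_four (hr : 160 ≤ r) (hsize : ∀ e ∈ H, e.card = r)
    (hpart : ∀ e ∈ H, Set.InjOn part (e : Set V)) (hdeg : ∀ v, (H.filter (v ∈ ·)).card ≤ 4)
    (ν : ℕ) (hν : ∀ M ⊆ H, (M : Set (Finset V)).Pairwise Disjoint → M.card ≤ ν) :
    ∃ C : Finset V, (∀ e ∈ H, ∃ v ∈ C, v ∈ e) ∧ (C.card : ℝ) ≤ ((r : ℝ) - 1) * ν := by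
  have hr' : (160 : ℝ) ≤ r := by exact_mod_cast hr
  set u : ℝ → ℝ := fun x => 1 - x / 20 + (x / 20) ^ 2 / 2 with hu
  refine cover_bound (by omega) part H hsize hpart 3 (by simpa using hdeg) (1 / 20) _ (by norm_num)
    (by push_cast; linarith) (by linarith) u (fun x => (23 / 80 - u x) / 3) ?_ ?_ ?_ ν hν
  · intro x hx
    have h := Real.quadratic_le_exp_of_nonneg (x := 1 / 20 * x) (by positivity)
    rw [Real.exp_neg, inv_le_iff_one_le_mul₀ (Real.exp_pos _)]
    have hu0 : 0 ≤ u x := by simp only [hu]; nlinarith [sq_nonneg (x / 20 - 1)]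
    refine le_trans ?_ (mul_le_mul_of_nonneg_left h hu0)
    simp only [hu]
    nlinarith [sq_nonneg ((x / 20) ^ 2)]
  · intro x hx hx3 k hk1 hk2
    push_cast at hx3
    interval_cases k <;> simp only [hu] <;> norm_num <;> nlinarith [sq_nonneg x]
  · intro x hx hx3
    push_cast at hx3
    have h160 : ((u x + x * ((23 / 80 - u x) / 3)) * (1 + 160 * x)) ≤ 159 := by
      have hQ : 0 ≤ 1247867 / 36000 - 18589 / 7200 * x + 1 / 15 * x ^ 2 := by nlinarith
      simp only [hu]
      nlinarith [mul_nonneg (sq_nonneg (x - 32 / 15)) hQ]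
    have hle : (u x + x * ((23 / 80 - u x) / 3)) * x ≤ 1 := by
      simp only [hu]
      nlinarith [sq_nonneg (x - 11 / 5), mul_nonneg hx (sub_nonneg.2 hx3),
        mul_nonneg hx (sq_nonneg (x - 11 / 5))]
    nlinarith [mul_le_mul_of_nonneg_left hle (sub_nonneg.2 hr')]

end Vale.Agent.P045
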